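import Mathlib

open Finset

namespace Vale.Agent.Lib.P262.Cert

/-- Integer points of three-space. -/
abbrev V3 := ℤ × ℤ × ℤ

/-- Squared Euclidean norm of an integer point. -/
def nsq (p : V3) : ℤ := p.1 * p.1 + p.2.1 * p.2.1 + p.2.2 * p.2.2

/-- `forced T vs p`: starting from the partial sum `p`, every choice of signs for the
vectors `vs` leads to a partial sum of squared norm at least `T`. -/
def forced (T : ℤ) : List V3 → V3 → Bool
  | [], p => decide (T ≤ nsq p)
  | v :: vs, p => decide (T ≤ nsq p) || (forced T vs (p + v) && forced T vs (p - v))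

/-- The partial sum reached from `p` after `k` steps with signs `s`. -/
def walk : List V3 → (ℕ → ℤ) → ℕ → V3 → V3
  | _, _, 0, p => p
  | [], _, _ + 1, p => p
  | v :: vs, s, k + 1, p => walk vs (fun t => s (t + 1)) k (p + s 0 • v)

theorem forced_sound (T : ℤ) : ∀ (vs : List V3) (p : V3) (s : ℕ → ℤ),
    forced T vs p = true → (∀ t, s t = 1 ∨ s t = -1) →
    ∃ k, k ≤ vs.length ∧ T ≤ nsq (walk vs s k p)
  | [], p, s, h, _ => ⟨0, le_refl _, by simpa [forced, walk] using h⟩
  | v :: vs, p, s, h, hs => by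
      simp only [forced, Bool.or_eq_true, Bool.and_eq_true, decide_eq_true_eq] at h
      rcases h with h | ⟨h1, h2⟩
      · exact ⟨0, Nat.zero_le _, by simpa [walk] using h⟩
      · rcases hs 0 with h0 | h0
        · obtain ⟨k, hk, hT⟩ :=
            forced_sound T vs (p + v) (fun t => s (t + 1)) h1 (fun t => hs (t + 1))
          refine ⟨k + 1, by simpa using hk, ?_⟩
          simpa [walk, h0] using hT
        · obtain ⟨k, hk, hT⟩ :=
            forced_sound T vs (p - v) (fun t => s (t + 1)) h2 (fun t => hs (t + 1))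
          refine ⟨k + 1, by simpa using hk, ?_⟩
          have e : p + s 0 • v = p - v := by
            rw [h0, neg_smul, one_smul, sub_eq_add_neg]
          show T ≤ nsq (walk vs (fun t => s (t + 1)) k (p + s 0 • v))
          rw [e]
          exact hT

theorem walk_eq : ∀ (vs : List V3) (s : ℕ → ℤ) (k : ℕ) (p : V3),
    walk vs s k p = p + ∑ t ∈ range k, s t • vs.getD t 0
  | [], s, 0, p => by simp [walk]
  | [], s, k + 1, p => by simp [walk]
  | v :: vs, s, 0, p => by simp [walk]
  | v :: vs, s, k + 1, p => by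
      rw [walk, walk_eq vs (fun t => s (t + 1)) k (p + s 0 • v), Finset.sum_range_succ']
      simp only [List.getD_cons_succ, List.getD_cons_zero]
      abel


/-- Coordinates of the vectors: `m` standard basis vectors followed by the gadget vectors
`W / D` placed in the last three coordinates. -/
noncomputable def cf (W : List V3) (D : ℤ) (m : ℕ) (i j : ℕ) : ℝ :=
  if i < m then (if j = i then 1 else 0)
  else if j = m then ((W.getD (i - m) 0).1 : ℝ) / D
  else if j = m + 1 then ((W.getD (i - m) 0).2.1 : ℝ) / D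
  else if j = m + 2 then ((W.getD (i - m) 0).2.2 : ℝ) / D
  else 0

/-- The vectors. -/
noncomputable def gv (W : List V3) (D : ℤ) (m : ℕ) (i : Fin (m + W.length)) :
    EuclideanSpace ℝ (Fin (m + 3)) :=
  WithLp.toLp 2 (fun j : Fin (m + 3) => cf W D m i j)

lemma norm_sq_coord (n : ℕ) (x : EuclideanSpace ℝ (Fin n)) :
    ‖x‖ ^ 2 = ∑ j : Fin n, (x.ofLp j) ^ 2 := by
  rw [EuclideanSpace.norm_sq_eq]
  simp

/-- Sum over the `m + 3` coordinates, written with natural-number indices. -/
lemma sum_coords (m : ℕ) (f : ℕ → ℝ) :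
    ∑ j : Fin (m + 3), f j = ∑ j ∈ range m, f j + f m + f (m + 1) + f (m + 2) := by
  rw [Fin.sum_univ_eq_sum_range (fun j => f j) (m + 3), Finset.sum_range_succ,
    Finset.sum_range_succ, Finset.sum_range_succ]

lemma gv_norm (W : List V3) (D : ℤ) (hD : 0 < D) (hW : ∀ w ∈ W, nsq w ≤ D * D) (m : ℕ)
    (i : Fin (m + W.length)) : ‖gv W D m i‖ ≤ 1 := by
  have hDr : (0 : ℝ) < (D : ℝ) := by exact_mod_cast hD
  have h : ‖gv W D m i‖ ^ 2 ≤ 1 := by
    rw [norm_sq_coord]
    simp only [gv]
    rw [sum_coords m (fun j => (cf W D m i j) ^ 2)]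
    by_cases hi : (i : ℕ) < m
    · have h1 : ∑ j ∈ range m, (cf W D m i j) ^ 2 = 1 := by
        rw [Finset.sum_eq_single (i : ℕ)]
        · simp [cf, hi]
        · intro b _ hb
          simp [cf, hi, hb]
        · intro hn
          exact absurd (Finset.mem_range.mpr hi) hn
      have h2 : cf W D m i m = 0 := by
        have : ¬ (m = (i : ℕ)) := by omega
        simp [cf, hi, this]
      have h3 : cf W D m i (m + 1) = 0 := by
        have : ¬ (m + 1 = (i : ℕ)) := by omega
        simp [cf, hi, this]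
      have h4 : cf W D m i (m + 2) = 0 := by
        have : ¬ (m + 2 = (i : ℕ)) := by omega
        simp [cf, hi, this]
      rw [h1, h2, h3, h4]
      norm_num
    · have h1 : ∑ j ∈ range m, (cf W D m i j) ^ 2 = 0 := by
        apply Finset.sum_eq_zero
        intro j hj
        have hj' : j < m := Finset.mem_range.mp hj
        have e1 : ¬ (j = m) := by omega
        have e2 : ¬ (j = m + 1) := by omega
        have e3 : ¬ (j = m + 2) := by omega
        simp [cf, hi, e1, e2, e3]
      have hlt : (i : ℕ) - m < W.length := by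
        have := i.2
        omega
      have hmem : W.getD ((i : ℕ) - m) 0 ∈ W := by
        rw [List.getD_eq_getElem _ _ hlt]
        exact List.getElem_mem hlt
      have hw := hW _ hmem
      have hwr : (((W.getD ((i : ℕ) - m) 0).1 : ℝ)) * ((W.getD ((i : ℕ) - m) 0).1 : ℝ)
          + ((W.getD ((i : ℕ) - m) 0).2.1 : ℝ) * ((W.getD ((i : ℕ) - m) 0).2.1 : ℝ)
          + ((W.getD ((i : ℕ) - m) 0).2.2 : ℝ) * ((W.getD ((i : ℕ) - m) 0).2.2 : ℝ)
          ≤ (D : ℝ) * (D : ℝ) := by
        unfold nsq at hw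
        exact_mod_cast hw
      have e2 : cf W D m i m = ((W.getD ((i : ℕ) - m) 0).1 : ℝ) / D := by
        simp [cf, hi]
      have e3 : cf W D m i (m + 1) = ((W.getD ((i : ℕ) - m) 0).2.1 : ℝ) / D := by
        simp [cf, hi]
      have e4 : cf W D m i (m + 2) = ((W.getD ((i : ℕ) - m) 0).2.2 : ℝ) / D := by
        simp [cf, hi]
      rw [h1, e2, e3, e4, zero_add, div_pow, div_pow, div_pow, ← add_div, ← add_div,
        div_le_one (by positivity)]
      nlinarith
  have h0 : 0 ≤ ‖gv W D m i‖ := norm_nonneg _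
  nlinarith


/-- Signs extended to all natural-number indices. -/
noncomputable def ext {N : ℕ} (ε : Fin N → ℝ) (i : ℕ) : ℝ := if h : i < N then ε ⟨i, h⟩ else 1

lemma ext_sign {N : ℕ} (ε : Fin N → ℝ) (hε : ∀ i, ε i = 1 ∨ ε i = -1) (i : ℕ) :
    ext ε i = 1 ∨ ext ε i = -1 := by
  unfold ext
  split_ifs with h
  · exact hε _
  · exact Or.inl rfl

lemma prefix_coord (W : List V3) (D : ℤ) (m : ℕ) (ε : Fin (m + W.length) → ℝ) (k : ℕ)
    (hk : k ≤ m + W.length) (j : Fin (m + 3)) :
    (∑ i ∈ univ.filter (fun i : Fin (m + W.length) => (i : ℕ) < k), ε i • gv W D m i).ofLp j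
      = ∑ i ∈ range k, ext ε i * cf W D m i j := by
  rw [Finset.sum_filter, WithLp.ofLp_sum, Finset.sum_apply]
  have h1 : ∀ i : Fin (m + W.length),
      ((if (i : ℕ) < k then ε i • gv W D m i else 0).ofLp j)
        = (fun i : ℕ => if i < k then ext ε i * cf W D m i j else 0) (i : ℕ) := by
    intro i
    by_cases h : (i : ℕ) < k
    · simp only [if_pos h]
      simp [gv, ext, i.2]
    · simp only [if_neg h]
      simp
  rw [Finset.sum_congr rfl (fun i _ => h1 i),
    Fin.sum_univ_eq_sum_range (fun i : ℕ => if i < k then ext ε i * cf W D m i j else 0)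
      (m + W.length), ← Finset.sum_filter]
  congr 1
  ext i
  simp only [Finset.mem_filter, Finset.mem_range]
  omega

lemma prefix_norm_sq (W : List V3) (D : ℤ) (m : ℕ) (ε : Fin (m + W.length) → ℝ)
    (hε : ∀ i, ε i = 1 ∨ ε i = -1) (k' : ℕ) (hk : k' ≤ W.length) :
    ‖∑ i ∈ univ.filter (fun i : Fin (m + W.length) => (i : ℕ) < m + k'), ε i • gv W D m i‖ ^ 2
      = m + (∑ t ∈ range k', ext ε (m + t) * ((W.getD t 0).1 : ℝ) / D) ^ 2
          + (∑ t ∈ range k', ext ε (m + t) * ((W.getD t 0).2.1 : ℝ) / D) ^ 2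
          + (∑ t ∈ range k', ext ε (m + t) * ((W.getD t 0).2.2 : ℝ) / D) ^ 2 := by
  rw [norm_sq_coord]
  simp only [prefix_coord W D m ε (m + k') (by omega)]
  rw [sum_coords m (fun j => (∑ i ∈ range (m + k'), ext ε i * cf W D m i j) ^ 2)]
  have hlow : ∀ j ∈ range m, (∑ i ∈ range (m + k'), ext ε i * cf W D m i j) ^ 2 = 1 := by
    intro j hj
    have hj' := Finset.mem_range.mp hj
    rw [Finset.sum_range_add]
    have e1 : ∑ i ∈ range m, ext ε i * cf W D m i j = ext ε j := by
      rw [Finset.sum_eq_single j]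
      · simp [cf, hj']
      · intro b hb hbj
        have hb' := Finset.mem_range.mp hb
        have : ¬ (j = b) := fun h => hbj h.symm
        simp [cf, hb', this]
      · intro hn
        exact absurd hj hn
    have e2 : ∑ t ∈ range k', ext ε (m + t) * cf W D m (m + t) j = 0 := by
      apply Finset.sum_eq_zero
      intro t _
      have a1 : ¬ (m + t < m) := by omega
      have a2 : ¬ (j = m) := by omega
      have a3 : ¬ (j = m + 1) := by omega
      have a4 : ¬ (j = m + 2) := by omega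
      simp [cf, a1, a2, a3, a4]
    rw [e1, e2, add_zero]
    rcases ext_sign ε hε j with h | h <;> rw [h] <;> norm_num
  have hzero : ∀ j : ℕ, m ≤ j → ∑ i ∈ range m, ext ε i * cf W D m i j = 0 := by
    intro j hj
    apply Finset.sum_eq_zero
    intro i hi
    have hi' := Finset.mem_range.mp hi
    have : ¬ (j = i) := by omega
    simp [cf, hi', this]
  have h0 : ∑ i ∈ range (m + k'), ext ε i * cf W D m i m
      = ∑ t ∈ range k', ext ε (m + t) * ((W.getD t 0).1 : ℝ) / D := by
    rw [Finset.sum_range_add, hzero m (le_refl _), zero_add]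
    apply Finset.sum_congr rfl
    intro t _
    have a1 : ¬ (m + t < m) := by omega
    simp [cf, a1, mul_div_assoc]
  have h1 : ∑ i ∈ range (m + k'), ext ε i * cf W D m i (m + 1)
      = ∑ t ∈ range k', ext ε (m + t) * ((W.getD t 0).2.1 : ℝ) / D := by
    rw [Finset.sum_range_add, hzero (m + 1) (by omega), zero_add]
    apply Finset.sum_congr rfl
    intro t _
    have a1 : ¬ (m + t < m) := by omega
    simp [cf, a1, mul_div_assoc]
  have h2 : ∑ i ∈ range (m + k'), ext ε i * cf W D m i (m + 2)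
      = ∑ t ∈ range k', ext ε (m + t) * ((W.getD t 0).2.2 : ℝ) / D := by
    rw [Finset.sum_range_add, hzero (m + 2) (by omega), zero_add]
    apply Finset.sum_congr rfl
    intro t _
    have a1 : ¬ (m + t < m) := by omega
    simp [cf, a1, mul_div_assoc]
  rw [Finset.sum_congr rfl hlow, h0, h1, h2]
  simp

/-- From a verified integer gadget to vectors in the unit ball of `ℝ^(m+3)`. -/
theorem cert_main (W : List V3) (D : ℤ) (hD : 0 < D) (T : ℤ)
    (hW : ∀ w ∈ W, nsq w ≤ D * D) (hforced : forced T W 0 = true) (m : ℕ) :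
    ∃ v : Fin (m + W.length) → EuclideanSpace ℝ (Fin (m + 3)),
      (∀ i, ‖v i‖ ≤ 1) ∧ ∀ ε : Fin (m + W.length) → ℝ, (∀ i, ε i = 1 ∨ ε i = -1) →
        ∃ k : ℕ, k ≤ m + W.length ∧
          (m : ℝ) + (T : ℝ) / ((D : ℝ) * (D : ℝ)) ≤
            ‖∑ i ∈ univ.filter (fun i : Fin (m + W.length) => (i : ℕ) < k), ε i • v i‖ ^ 2 := by
  refine ⟨gv W D m, gv_norm W D hD hW m, ?_⟩
  intro ε hε
  let s : ℕ → ℤ := fun t => if ext ε (m + t) = 1 then 1 else -1
  have hs : ∀ t, s t = 1 ∨ s t = -1 := by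
    intro t
    simp only [s]
    split_ifs <;> simp
  have hsr : ∀ t, ((s t : ℤ) : ℝ) = ext ε (m + t) := by
    intro t
    simp only [s]
    rcases ext_sign ε hε (m + t) with h | h
    · simp [h]
    · have : ¬ ((-1 : ℝ) = 1) := by norm_num
      simp [h, this]
  obtain ⟨k', hk', hT⟩ := forced_sound T W 0 s hforced hs
  refine ⟨m + k', by omega, ?_⟩
  rw [prefix_norm_sq W D m ε hε k' hk']
  have hw := walk_eq W s k' 0
  have c1 : ∑ t ∈ range k', ext ε (m + t) * ((W.getD t 0).1 : ℝ) / D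
      = ((walk W s k' 0).1 : ℝ) / D := by
    rw [hw]
    simp only [zero_add, Prod.fst_sum, Prod.smul_fst, smul_eq_mul]
    push_cast
    rw [Finset.sum_div]
    apply Finset.sum_congr rfl
    intro t _
    rw [hsr]
  have c2 : ∑ t ∈ range k', ext ε (m + t) * ((W.getD t 0).2.1 : ℝ) / D
      = ((walk W s k' 0).2.1 : ℝ) / D := by
    rw [hw]
    simp only [zero_add, Prod.snd_sum, Prod.fst_sum, Prod.smul_snd, Prod.smul_fst, smul_eq_mul]
    push_cast
    rw [Finset.sum_div]
    apply Finset.sum_congr rfl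
    intro t _
    rw [hsr]
  have c3 : ∑ t ∈ range k', ext ε (m + t) * ((W.getD t 0).2.2 : ℝ) / D
      = ((walk W s k' 0).2.2 : ℝ) / D := by
    rw [hw]
    simp only [zero_add, Prod.snd_sum, Prod.smul_snd, smul_eq_mul]
    push_cast
    rw [Finset.sum_div]
    apply Finset.sum_congr rfl
    intro t _
    rw [hsr]
  rw [c1, c2, c3]
  have hDr : (0 : ℝ) < (D : ℝ) := by exact_mod_cast hD
  have hTr : (T : ℝ) ≤ ((walk W s k' 0).1 : ℝ) * ((walk W s k' 0).1 : ℝ)
      + ((walk W s k' 0).2.1 : ℝ) * ((walk W s k' 0).2.1 : ℝ)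
      + ((walk W s k' 0).2.2 : ℝ) * ((walk W s k' 0).2.2 : ℝ) := by
    unfold nsq at hT
    exact_mod_cast hT
  have hsum : (((walk W s k' 0).1 : ℝ) / D) ^ 2 + (((walk W s k' 0).2.1 : ℝ) / D) ^ 2
      + (((walk W s k' 0).2.2 : ℝ) / D) ^ 2
      = (((walk W s k' 0).1 : ℝ) * ((walk W s k' 0).1 : ℝ)
      + ((walk W s k' 0).2.1 : ℝ) * ((walk W s k' 0).2.1 : ℝ)
      + ((walk W s k' 0).2.2 : ℝ) * ((walk W s k' 0).2.2 : ℝ)) / ((D : ℝ) * (D : ℝ)) := by
    field_simp
  have hdiv : (T : ℝ) / ((D : ℝ) * (D : ℝ))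
      ≤ (((walk W s k' 0).1 : ℝ) * ((walk W s k' 0).1 : ℝ)
      + ((walk W s k' 0).2.1 : ℝ) * ((walk W s k' 0).2.1 : ℝ)
      + ((walk W s k' 0).2.2 : ℝ) * ((walk W s k' 0).2.2 : ℝ)) / ((D : ℝ) * (D : ℝ)) :=
    div_le_div_of_nonneg_right hTr (by positivity)
  linarith

end Vale.Agent.Lib.P262.Cert
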