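import Mathlib

open Finset

namespace Vale.Agent.Lib.P262


noncomputable def ga : ℝ := Real.sqrt (3/8)
noncomputable def gb : ℝ := Real.sqrt (5/8)
lemma sq_a : ga ^ 2 = 3/8 := Real.sq_sqrt (by norm_num)
lemma sq_b : gb ^ 2 = 5/8 := Real.sq_sqrt (by norm_num)

/-- coordinates of the gadget vectors -/
noncomputable def cvec (m : ℕ) (i j : ℕ) : ℝ :=
  if i < m then (if j = i then 1 else 0)
  else if i = m then (if j = m then ga else if j = m + 1 then gb else 0)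
  else if i = m + 1 then (if j = m then ga else if j = m + 1 then -gb else 0)
  else (if j = m + 1 then 1 else 0)

lemma norm_sq_eq' (n : ℕ) (x : EuclideanSpace ℝ (Fin n)) : ‖x‖ ^ 2 = ∑ j, (x.ofLp j) ^ 2 := by
  rw [EuclideanSpace.norm_sq_eq]
  simp

lemma sum_fin_split (m : ℕ) (f : Fin (m + 2) → ℝ) :
    ∑ j, f j = ∑ j : Fin m, f ⟨j, by omega⟩ + f ⟨m, by omega⟩ + f ⟨m + 1, by omega⟩ := by
  rw [Fin.sum_univ_castSucc, Fin.sum_univ_castSucc]
  rfl

lemma sum_fin_split3 (m : ℕ) (f : Fin (m + 2 + 1) → ℝ) :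
    ∑ j, f j = ∑ j : Fin m, f ⟨j, by omega⟩ + f ⟨m, by omega⟩ + f ⟨m + 1, by omega⟩
      + f ⟨m + 2, by omega⟩ := by
  rw [Fin.sum_univ_castSucc, Fin.sum_univ_castSucc, Fin.sum_univ_castSucc]
  rfl

lemma cvec_lt (m i j : ℕ) (hi : i < m) : cvec m i j = if j = i then 1 else 0 := by
  simp [cvec, hi]

lemma cvec_m (m j : ℕ) : cvec m m j =
    if j = m then ga else if j = m + 1 then gb else 0 := by
  simp [cvec]

lemma cvec_m1 (m j : ℕ) : cvec m (m + 1) j =
    if j = m then ga else if j = m + 1 then -gb else 0 := by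
  simp [cvec]

lemma cvec_m2 (m j : ℕ) : cvec m (m + 2) j = if j = m + 1 then 1 else 0 := by
  simp [cvec]

/-- the vectors -/
noncomputable def gv (m : ℕ) (i : Fin (m + 2 + 1)) : EuclideanSpace ℝ (Fin (m + 2)) :=
  WithLp.toLp 2 (fun j : Fin (m + 2) => cvec m i j)

lemma sum_ind (m : ℕ) (i : ℕ) (h : i < m) :
    ∑ x : Fin m, (if (x : ℕ) = i then (1 : ℝ) else 0) ^ 2 = 1 := by
  rw [Finset.sum_eq_single (⟨i, h⟩ : Fin m)]
  · simp
  · intro b _ hb
    have : (b : ℕ) ≠ i := fun hh => hb (Fin.ext hh)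
    simp [this]
  · simp

lemma gv_norm (m : ℕ) (i : Fin (m + 2 + 1)) : ‖gv m i‖ ≤ 1 := by
  have h : ‖gv m i‖ ^ 2 ≤ 1 := by
    rw [norm_sq_eq', sum_fin_split]
    simp only [gv]
    have hx1 : ∀ x : Fin m, ¬ ((x : ℕ) = m) := fun x => by omega
    have hx2 : ∀ x : Fin m, ¬ ((x : ℕ) = m + 1) := fun x => by omega
    rcases lt_trichotomy (i : ℕ) m with h | h | h
    · simp only [cvec_lt m i _ h]
      rw [sum_ind m i h]
      have h1 : ¬ (m = (i : ℕ)) := by omega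
      have h2 : ¬ (m + 1 = (i : ℕ)) := by omega
      simp [h1, h2]
    · rw [h]
      simp only [cvec_m]
      simp [hx1, hx2, sq_a, sq_b]
      norm_num
    · rcases lt_trichotomy (i : ℕ) (m + 1) with h' | h' | h'
      · omega
      · rw [h']
        simp only [cvec_m1]
        simp [hx1, hx2, sq_a, sq_b]
        norm_num
      · have h3 : (i : ℕ) = m + 2 := by omega
        rw [h3]
        simp only [cvec_m2]
        simp [hx2]
  have h0 : 0 ≤ ‖gv m i‖ := norm_nonneg _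
  nlinarith

/-- coordinates of the signed prefix sums -/
lemma prefix_coord (m : ℕ) (ε : Fin (m + 2 + 1) → ℝ) (k : ℕ) (j : Fin (m + 2)) :
    (∑ i ∈ Finset.univ.filter (fun i : Fin (m + 2 + 1) => (i : ℕ) < k), ε i • gv m i).ofLp j
      = ∑ i : Fin (m + 2 + 1), if (i : ℕ) < k then ε i * cvec m i j else 0 := by
  rw [Finset.sum_filter]
  rw [WithLp.ofLp_sum, Finset.sum_apply]
  apply Finset.sum_congr rfl
  intro i _
  split_ifs <;> simp [gv]



lemma sum_pick (m : ℕ) (f : Fin m → ℝ) (j : Fin m) :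
    ∑ i : Fin m, f i * (if (j : ℕ) = (i : ℕ) then (1 : ℝ) else 0) = f j := by
  rw [Finset.sum_eq_single j]
  · simp
  · intro b _ hb
    have : ¬ ((j : ℕ) = (b : ℕ)) := fun hh => hb (Fin.ext hh.symm)
    simp [this]
  · simp

lemma sign_sq (x : ℝ) (h : x = 1 ∨ x = -1) : x ^ 2 = 1 := by
  rcases h with h | h <;> rw [h] <;> norm_num

lemma prefix_norm_sq (m : ℕ) (ε : Fin (m + 2 + 1) → ℝ) (hε : ∀ i, ε i = 1 ∨ ε i = -1)
    (k : ℕ) (hk : m + 2 ≤ k) :
    ‖∑ i ∈ Finset.univ.filter (fun i : Fin (m + 2 + 1) => (i : ℕ) < k), ε i • gv m i‖ ^ 2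
      = m + (ga * (ε ⟨m, by omega⟩ + ε ⟨m + 1, by omega⟩)) ^ 2
        + (gb * (ε ⟨m, by omega⟩ - ε ⟨m + 1, by omega⟩)
            + if m + 2 < k then ε ⟨m + 2, by omega⟩ else 0) ^ 2 := by
  rw [norm_sq_eq', sum_fin_split]
  simp only [prefix_coord, sum_fin_split3]
  have hx1 : ∀ x : Fin m, ¬ ((x : ℕ) = m) := fun x => by omega
  have hx2 : ∀ x : Fin m, ¬ ((x : ℕ) = m + 1) := fun x => by omega
  have hx3 : ∀ x : Fin m, (x : ℕ) < k := fun x => by omega
  have hx4 : ∀ x : Fin m, (x : ℕ) < m := fun x => x.2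
  have hk1 : m < k := by omega
  have hk2 : m + 1 < k := by omega
  have e1 : ∀ j : Fin m, (∑ x : Fin m, (if (x : ℕ) < k then
      ε ⟨x, by omega⟩ * cvec m x j else 0)) = ε ⟨j, by omega⟩ := by
    intro j
    have := sum_pick m (fun x => ε ⟨x, by omega⟩) j
    rw [← this]
    apply Finset.sum_congr rfl
    intro x _
    simp [hx3 x, cvec_lt m x j (hx4 x)]
  have e2 : (∑ x : Fin m, (if (x : ℕ) < k then
      ε ⟨x, by omega⟩ * cvec m x m else 0)) = 0 := by
    apply Finset.sum_eq_zero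
    intro x _
    have : ¬ (m = (x : ℕ)) := by omega
    simp [hx3 x, cvec_lt m x m (hx4 x), this]
  have e3 : (∑ x : Fin m, (if (x : ℕ) < k then
      ε ⟨x, by omega⟩ * cvec m x (m + 1) else 0)) = 0 := by
    apply Finset.sum_eq_zero
    intro x _
    have : ¬ (m + 1 = (x : ℕ)) := by omega
    simp [hx3 x, cvec_lt m x (m + 1) (hx4 x), this]
  simp only [e1, e2, e3, hk1, hk2, if_true, cvec_m, cvec_m1, cvec_m2]
  have e4 : ∑ x : Fin m, (ε ⟨x, by omega⟩ + ε ⟨m, by omega⟩ * (if (x : ℕ) = m then ga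
      else if (x : ℕ) = m + 1 then gb else 0) + ε ⟨m + 1, by omega⟩ * (if (x : ℕ) = m then ga
      else if (x : ℕ) = m + 1 then -gb else 0) + if m + 2 < k then ε ⟨m + 2, by omega⟩ *
      (if (x : ℕ) = m + 1 then 1 else 0) else 0) ^ 2 = m := by
    have : ∀ x : Fin m, (ε ⟨x, by omega⟩ + ε ⟨m, by omega⟩ * (if (x : ℕ) = m then ga
      else if (x : ℕ) = m + 1 then gb else 0) + ε ⟨m + 1, by omega⟩ * (if (x : ℕ) = m then ga
      else if (x : ℕ) = m + 1 then -gb else 0) + if m + 2 < k then ε ⟨m + 2, by omega⟩ *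
      (if (x : ℕ) = m + 1 then 1 else 0) else 0) ^ 2 = 1 := by
      intro x
      simp [hx1 x, hx2 x, sign_sq _ (hε _)]
    rw [Finset.sum_congr rfl (fun x _ => this x)]
    simp
  rw [e4]
  simp
  split_ifs <;> ring


/-- For every `m`, in dimension `m + 2` the `m + 3` gadget vectors lie in the unit ball and
every signing has a prefix sum of squared norm at least `m + 2 + 1/2`. -/
theorem gadget_main (m : ℕ) :
    ∃ v : Fin (m + 2 + 1) → EuclideanSpace ℝ (Fin (m + 2)),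
      (∀ i, ‖v i‖ ≤ 1) ∧
      ∀ ε : Fin (m + 2 + 1) → ℝ, (∀ i, ε i = 1 ∨ ε i = -1) →
        ∃ k : ℕ, k ≤ m + 2 + 1 ∧
          Real.sqrt (((m + 2 : ℕ) : ℝ) + 1 / 2) ≤
            ‖∑ i ∈ Finset.univ.filter (fun i : Fin (m + 2 + 1) => (i : ℕ) < k), ε i • v i‖ := by
  refine ⟨gv m, gv_norm m, ?_⟩
  intro ε hε
  have hsq : ∀ k : ℕ, m + 2 ≤ k →
      (m : ℝ) + 5 / 2 ≤ m + (ga * (ε ⟨m, by omega⟩ + ε ⟨m + 1, by omega⟩)) ^ 2
        + (gb * (ε ⟨m, by omega⟩ - ε ⟨m + 1, by omega⟩)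
            + if m + 2 < k then ε ⟨m + 2, by omega⟩ else 0) ^ 2 →
      Real.sqrt (((m + 2 : ℕ) : ℝ) + 1 / 2) ≤
        ‖∑ i ∈ Finset.univ.filter (fun i : Fin (m + 2 + 1) => (i : ℕ) < k), ε i • gv m i‖ := by
    intro k hk h
    rw [← Real.sqrt_sq (norm_nonneg (∑ i ∈ Finset.univ.filter
      (fun i : Fin (m + 2 + 1) => (i : ℕ) < k), ε i • gv m i))]
    apply Real.sqrt_le_sqrt
    rw [prefix_norm_sq m ε hε k hk]
    push_cast
    linarith
  have ha := sq_a
  have hb := sq_b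
  have h2 := sign_sq _ (hε ⟨m + 2, by omega⟩)
  rcases hε ⟨m, by omega⟩ with h0 | h0 <;> rcases hε ⟨m + 1, by omega⟩ with h1 | h1
  · refine ⟨m + 3, le_refl _, hsq (m + 3) (by omega) ?_⟩
    rw [h0, h1]
    simp only [show m + 2 < m + 3 by omega, if_true]
    nlinarith
  · refine ⟨m + 2, by omega, hsq (m + 2) (by omega) ?_⟩
    rw [h0, h1]
    simp only [lt_irrefl, if_false]
    nlinarith
  · refine ⟨m + 2, by omega, hsq (m + 2) (by omega) ?_⟩
    rw [h0, h1]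
    simp only [lt_irrefl, if_false]
    nlinarith
  · refine ⟨m + 3, le_refl _, hsq (m + 3) (by omega) ?_⟩
    rw [h0, h1]
    simp only [show m + 2 < m + 3 by omega, if_true]
    nlinarith

end Vale.Agent.Lib.P262
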