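import Mathlib
import Vale.Agent.Lib.P262.Cert

namespace Vale.Agent.Lib.P262.Cert

/-- The gadget: 16 integer vectors of Euclidean norm at most 10000. -/
def gadget : List V3 := [(-1620, 3589, 9192), (6383, 5911, -4931), (-7344, 6738, -814), (-7619, -3855, 5204), (-7554, -6537, 448), (4435, -3512, -8246), (686, 53, 9976), (-7818, -5907, -1961), (5937, 7954, -1208), (-6276, 564, -7754), (7677, 114, 6080), (-4975, 3280, -8030), (8674, 4612, -1710), (6186, 7846, -177), (-6444, 5152, -5478), (-3132, -6975, -4181)]

theorem gadget_length : gadget.length = 16 := by decide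

theorem gadget_ball : ∀ w ∈ gadget, nsq w ≤ 10000 * 10000 := by decide

theorem gadget_forced : forced 430000000 gadget 0 = true := by decide

end Vale.Agent.Lib.P262.Cert
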