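import Mathlib

open Finset

namespace Vale.Agent.Lib.P262



section abstract

variable {E H : Type*} [NormedAddCommGroup E] [InnerProductSpace ℝ E]
  [NormedAddCommGroup H] [InnerProductSpace ℝ H]

lemma vec_step (T : E → H) (hT : ∀ u, ‖T u‖ ≤ ‖u‖) (w : E) (hw : ‖w‖ ≤ 1)
    (hlin : ∀ (u : E) (a : ℝ), T (u - a • w) = T u - a • T w)
    (e : H) (he : ‖e‖ = 1) (horth : ∀ u, inner ℝ (T u) e = 0) :
    ‖- T w + Real.sqrt (1 - ‖T w‖ ^ 2) • e‖ = 1 ∧
      ∀ u, ‖T u + inner ℝ u w • (- T w + Real.sqrt (1 - ‖T w‖ ^ 2) • e)‖ ≤ ‖u‖ := by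
  have hTw : ‖T w‖ ^ 2 ≤ 1 := by
    have h1 := hT w
    have h2 := norm_nonneg (T w)
    nlinarith
  have hc : Real.sqrt (1 - ‖T w‖ ^ 2) ^ 2 = 1 - ‖T w‖ ^ 2 := Real.sq_sqrt (by linarith)
  set c := Real.sqrt (1 - ‖T w‖ ^ 2) with hcdef
  have hsq : ∀ (x : H) (b : ℝ), inner ℝ x e = 0 → ‖x + b • e‖ ^ 2 = ‖x‖ ^ 2 + b ^ 2 := by
    intro x b hx
    rw [norm_add_sq_real, real_inner_smul_right, hx, norm_smul, he]
    simp only [Real.norm_eq_abs, mul_zero, add_zero, mul_one, sq_abs]
  constructor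
  · have h1 : ‖- T w + c • e‖ ^ 2 = 1 := by
      rw [hsq _ _ (by rw [inner_neg_left, horth, neg_zero]), norm_neg, hc]
      ring
    have h2 := norm_nonneg (- T w + c • e)
    nlinarith
  · intro u
    have h1 : T u + inner ℝ u w • (- T w + c • e)
        = T (u - inner ℝ u w • w) + (inner ℝ u w * c) • e := by
      rw [hlin, smul_add, smul_neg, mul_smul]
      abel
    have h2 : ‖T u + inner ℝ u w • (- T w + c • e)‖ ^ 2 ≤ ‖u‖ ^ 2 := by
      rw [h1, hsq _ _ (horth _)]
      have h3 := hT (u - inner ℝ u w • w)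
      have h4 : ‖u - inner ℝ u w • w‖ ^ 2
          = ‖u‖ ^ 2 - 2 * inner ℝ u w ^ 2 + inner ℝ u w ^ 2 * ‖w‖ ^ 2 := by
        rw [norm_sub_sq_real, real_inner_smul_right, norm_smul, mul_pow]
        simp only [Real.norm_eq_abs, sq_abs]
        ring
      have h5 : ‖T (u - inner ℝ u w • w)‖ ^ 2 ≤ ‖u - inner ℝ u w • w‖ ^ 2 := by
        have := norm_nonneg (T (u - inner ℝ u w • w))
        nlinarith
      have h6 : ‖w‖ ^ 2 ≤ 1 := by
        have := norm_nonneg w
        nlinarith
      have h7 : 0 ≤ inner ℝ u w ^ 2 := sq_nonneg _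
      have h8 : 0 ≤ ‖T w‖ ^ 2 := sq_nonneg _
      rw [mul_pow, hc]
      nlinarith [mul_nonneg h7 h8, mul_nonneg h7 (sub_nonneg.mpr h6)]
    have h3 := norm_nonneg (T u + inner ℝ u w • (- T w + c • e))
    have h4 := norm_nonneg u
    nlinarith

end abstract




variable {d N : ℕ}

/-- the operator `u ↦ ∑_{i<k} ⟨u, v_i⟩ y_i` -/
noncomputable def tsum (v : ℕ → EuclideanSpace ℝ (Fin d)) (y : ℕ → EuclideanSpace ℝ (Fin N))
    (k : ℕ) (u : EuclideanSpace ℝ (Fin d)) : EuclideanSpace ℝ (Fin N) :=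
  ∑ i ∈ range k, inner ℝ u (v i) • y i

lemma tsum_lin (v : ℕ → EuclideanSpace ℝ (Fin d)) (y : ℕ → EuclideanSpace ℝ (Fin N))
    (k : ℕ) (u w : EuclideanSpace ℝ (Fin d)) (a : ℝ) :
    tsum v y k (u - a • w) = tsum v y k u - a • tsum v y k w := by
  unfold tsum
  rw [Finset.smul_sum, ← Finset.sum_sub_distrib]
  apply Finset.sum_congr rfl
  intro i _
  rw [inner_sub_left, real_inner_smul_left, sub_smul, mul_smul]

lemma tsum_congr (v : ℕ → EuclideanSpace ℝ (Fin d)) (y y' : ℕ → EuclideanSpace ℝ (Fin N))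
    (k : ℕ) (h : ∀ i < k, y' i = y i) (u : EuclideanSpace ℝ (Fin d)) :
    tsum v y' k u = tsum v y k u := by
  unfold tsum
  apply Finset.sum_congr rfl
  intro i hi
  rw [h i (Finset.mem_range.mp hi)]

theorem exists_vec (v : ℕ → EuclideanSpace ℝ (Fin d)) (hv : ∀ i, ‖v i‖ ≤ 1) :
    ∀ k ≤ N, ∃ y : ℕ → EuclideanSpace ℝ (Fin N),
      (∀ i < k, ‖y i‖ = 1) ∧
      (∀ i < k, ∀ j : Fin N, k ≤ (j : ℕ) → y i j = 0) ∧
      (∀ k' ≤ k, ∀ u, ‖tsum v y k' u‖ ≤ ‖u‖) := by
  intro k
  induction k with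
  | zero =>
    intro _
    refine ⟨fun _ => 0, by simp, by simp, ?_⟩
    intro k' hk' u
    have : k' = 0 := by omega
    subst this
    simp [tsum]
  | succ k ih =>
    intro hk
    obtain ⟨y, ha, hb, hc⟩ := ih (by omega)
    have hkN : k < N := by omega
    set e : EuclideanSpace ℝ (Fin N) := EuclideanSpace.single (⟨k, hkN⟩ : Fin N) (1 : ℝ) with he
    have hnorm_e : ‖e‖ = 1 := by simp [he]
    have horth : ∀ u, inner ℝ (tsum v y k u) e = 0 := by
      intro u
      unfold tsum
      rw [sum_inner]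
      apply Finset.sum_eq_zero
      intro i hi
      rw [real_inner_smul_left, he, EuclideanSpace.inner_single_right]
      have := hb i (Finset.mem_range.mp hi) ⟨k, hkN⟩ (le_refl _)
      simp [this]
    obtain ⟨h1, h2⟩ := vec_step (tsum v y k) (hc k (le_refl _)) (v k) (hv k)
      (fun u a => tsum_lin v y k u (v k) a) e hnorm_e horth
    set ynew := - tsum v y k (v k) + Real.sqrt (1 - ‖tsum v y k (v k)‖ ^ 2) • e with hynew
    refine ⟨Function.update y k ynew, ?_, ?_, ?_⟩
    · intro i hi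
      by_cases hik : i = k
      · rw [hik, Function.update_self]
        exact h1
      · rw [Function.update_of_ne hik]
        exact ha i (by omega)
    · intro i hi j hj
      by_cases hik : i = k
      · rw [hik, Function.update_self, hynew]
        have hjk : (j : Fin N) ≠ ⟨k, hkN⟩ := by
          intro h
          have := congrArg Fin.val h
          simp at this
          omega
        have h3 : (tsum v y k (v k)) j = 0 := by
          unfold tsum
          simp only [WithLp.ofLp_sum, WithLp.ofLp_smul, Finset.sum_apply, Pi.smul_apply, smul_eq_mul]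
          apply Finset.sum_eq_zero
          intro i' hi'
          rw [hb i' (Finset.mem_range.mp hi') j (by omega), mul_zero]
        simp [h3, he, hjk]
      · rw [Function.update_of_ne hik]
        exact hb i (by omega) j (by omega)
    · intro k' hk' u
      by_cases hk'' : k' ≤ k
      · rw [tsum_congr v y _ k' (fun i hi => Function.update_of_ne (by omega) _ _)]
        exact hc k' hk'' u
      · have hk1 : k' = k + 1 := by omega
        rw [hk1]
        have h3 : tsum v (Function.update y k ynew) (k + 1) u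
            = tsum v y k u + inner ℝ u (v k) • ynew := by
          unfold tsum
          rw [Finset.sum_range_succ, Function.update_self]
          congr 1
          apply Finset.sum_congr rfl
          intro i hi
          rw [Function.update_of_ne (by have := Finset.mem_range.mp hi; omega)]
        rw [h3]
        exact h2 u




lemma sum_fin_filter_lt {M : Type*} [AddCommMonoid M] (N k : ℕ) (g : ℕ → M) :
    ∑ i ∈ Finset.univ.filter (fun i : Fin N => (i : ℕ) < k), g i
      = ∑ i ∈ range (min k N), g i := by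
  rw [Finset.sum_filter, Fin.sum_univ_eq_sum_range (fun i => if i < k then g i else 0) N,
    ← Finset.sum_filter]
  apply Finset.sum_congr
  · ext i
    simp only [Finset.mem_filter, Finset.mem_range]
    omega
  · intro i _
    rfl

lemma norm_sq_sum_smul {H : Type*} [NormedAddCommGroup H] [InnerProductSpace ℝ H]
    {ι : Type*} (s : Finset ι) (c : ι → ℝ) (y : ι → H) :
    ‖∑ i ∈ s, c i • y i‖ ^ 2 = ∑ i ∈ s, ∑ j ∈ s, c i * c j * inner ℝ (y i) (y j) := by
  rw [← real_inner_self_eq_norm_sq, sum_inner]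
  apply Finset.sum_congr rfl
  intro i _
  rw [inner_sum]
  apply Finset.sum_congr rfl
  intro j _
  rw [real_inner_smul_left, real_inner_smul_right]
  ring

theorem vec_prefix (d N : ℕ) (v : Fin N → EuclideanSpace ℝ (Fin d)) (hv : ∀ i, ‖v i‖ ≤ 1) :
    ∃ y : Fin N → EuclideanSpace ℝ (Fin N), (∀ i, ‖y i‖ = 1) ∧
      ∀ k : ℕ,
        (∀ u : EuclideanSpace ℝ (Fin d),
          ‖∑ i ∈ Finset.univ.filter (fun i : Fin N => (i : ℕ) < k), inner ℝ u (v i) • y i‖
            ≤ ‖u‖) ∧
        ∑ i ∈ Finset.univ.filter (fun i : Fin N => (i : ℕ) < k),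
          ∑ j ∈ Finset.univ.filter (fun j : Fin N => (j : ℕ) < k),
            inner ℝ (v i) (v j) * inner ℝ (y i) (y j) ≤ d := by
  classical
  let v' : ℕ → EuclideanSpace ℝ (Fin d) := fun i => if h : i < N then v ⟨i, h⟩ else 0
  have hv' : ∀ i, ‖v' i‖ ≤ 1 := by
    intro i
    simp only [v']
    split_ifs with h
    · exact hv _
    · simp
  obtain ⟨y', ha, _, hc⟩ := exists_vec (N := N) v' hv' N (le_refl _)
  have hop : ∀ (k : ℕ) (u : EuclideanSpace ℝ (Fin d)),
      ‖∑ i ∈ Finset.univ.filter (fun i : Fin N => (i : ℕ) < k), inner ℝ u (v i) • y' i‖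
        ≤ ‖u‖ := by
    intro k u
    have h1 : ∑ i ∈ Finset.univ.filter (fun i : Fin N => (i : ℕ) < k), inner ℝ u (v i) • y' i
        = ∑ i ∈ Finset.univ.filter (fun i : Fin N => (i : ℕ) < k),
            (fun j : ℕ => inner ℝ u (v' j) • y' j) i := by
      apply Finset.sum_congr rfl
      intro i _
      simp only [v']
      rw [dif_pos i.2]
    rw [h1, sum_fin_filter_lt N k (fun j : ℕ => inner ℝ u (v' j) • y' j)]
    exact hc (min k N) (min_le_right _ _) u
  refine ⟨fun i => y' i, fun i => ha i i.2, fun k => ⟨hop k, ?_⟩⟩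
  set S := Finset.univ.filter (fun i : Fin N => (i : ℕ) < k) with hS
  have h2 : ∀ a : Fin d,
      ∑ i ∈ S, ∑ j ∈ S, (v i a * v j a) * inner ℝ (y' i) (y' j) ≤ 1 := by
    intro a
    have h3 := hop k (EuclideanSpace.single a (1 : ℝ))
    have h4 : ‖(EuclideanSpace.single a (1 : ℝ) : EuclideanSpace ℝ (Fin d))‖ = 1 := by simp
    rw [h4] at h3
    have h5 := norm_sq_sum_smul S (fun i : Fin N => inner ℝ (EuclideanSpace.single a (1 : ℝ)) (v i))
      (fun i : Fin N => y' i)
    have h6 : ∀ i : Fin N, inner ℝ (EuclideanSpace.single a (1 : ℝ)) (v i) = v i a := by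
      intro i
      rw [EuclideanSpace.inner_single_left]
      simp
    simp only [h6] at h5
    rw [← h5]
    have h7 := norm_nonneg (∑ i ∈ S, inner ℝ (EuclideanSpace.single a (1 : ℝ)) (v i) • y' i)
    simp only [h6] at h3 h7
    nlinarith
  have h8 : ∑ i ∈ S, ∑ j ∈ S, inner ℝ (v i) (v j) * inner ℝ (y' i) (y' j)
      = ∑ a : Fin d, ∑ i ∈ S, ∑ j ∈ S, (v i a * v j a) * inner ℝ (y' i) (y' j) := by
    conv_rhs => rw [Finset.sum_comm]
    apply Finset.sum_congr rfl
    intro i _
    conv_rhs => rw [Finset.sum_comm]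
    apply Finset.sum_congr rfl
    intro j _
    rw [← Finset.sum_mul]
    congr 1
    rw [PiLp.inner_apply]
    apply Finset.sum_congr rfl
    intro a _
    simp
    ring
  rw [h8]
  calc ∑ a : Fin d, ∑ i ∈ S, ∑ j ∈ S, (v i a * v j a) * inner ℝ (y' i) (y' j)
      ≤ ∑ a : Fin d, (1 : ℝ) := Finset.sum_le_sum (fun a _ => h2 a)
    _ = d := by simp


end Vale.Agent.Lib.P262
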